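import Vale.Agent.P235.K5.Glue
import Vale.Agent.P235.K5.H578.Far

set_option linter.all false

/-!
# K5, the end: the sum of the two glued laws
-/

namespace Vale.Agent.P235.K5.H502

open Finset Function Vale.Agent.P235 Vale.Agent.P235.H684

variable {n T k : ℕ}

/-- a semimetric which is nonexpanding on the torsos is nonexpanding -/
theorem le_all (Z : Tor n T k) {d : Fin n → Fin n → ℝ} (hd : Z.Sep d) {ρ : Fin n → Fin n → ℝ}
    (hρ0 : ∀ i, ρ i i = 0) (hρs : ∀ i j, ρ i j = ρ j i) (hρt : ∀ i j l, ρ i l ≤ ρ i j + ρ j l)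
    (hb : ∀ t, ∀ p ∈ Z.H t, ∀ p' ∈ Z.H t, ρ p p' ≤ d p p') (i j : Fin n) : ρ i j ≤ d i j := by
  have hle' : ∀ (m : ℕ) (i j : Fin n), (i : ℕ) < m → (j : ℕ) < m → ρ i j ≤ d i j := by
    intro m
    induction m with
    | zero => intro i j hi; omega
    | succ m ih =>
      have key : ∀ i j : Fin n, (i : ℕ) < m + 1 → j < i → ρ i j ≤ d i j := by
        intro i j hi hji
        have hiH : i ∈ Z.H (Z.tor i) := by
          unfold Tor.H
          simp
        rcases eq_or_lt_of_le (Z.mono hji.le) with h | h
        · refine hb (Z.tor i) i hiH j ?_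
          unfold Tor.H
          simp [h]
        · obtain ⟨a, ha, h1⟩ := hd.sep (Z.tor i) i j (Elim.Desc.refl _ _) fun h' =>
            absurd (Elim.Desc.le h') (not_le.2 h)
          have hai : a < i := by
            by_contra hcon
            exact absurd (Z.low _ a ha) (not_lt.2 (Z.mono (not_lt.1 hcon)))
          have haH : a ∈ Z.H (Z.tor i) := by
            unfold Tor.H
            exact Finset.mem_union_left _ ha
          have h2 : ρ i a ≤ d i a := hb (Z.tor i) i hiH a haH
          have h3 : ρ a j ≤ d a j := ih a j (by rw [Fin.lt_def] at hai; omega)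
            (by rw [Fin.lt_def] at hji; omega)
          have h4 := hρt i a j
          linarith
      intro i j hi hj
      rcases lt_trichotomy i j with h | h | h
      · rw [hρs, hd.symm]
        exact key j i hj h
      · rw [h, hρ0, hd.self]
      · exact key i j hi h
  exact hle' n i j i.2 j.2

/-- the semimetric of the glued law -/
noncomputable def rr (E : Elim n) (μ : Fin n → (Fin n → Bool) → ℝ) (Λ : ℝ) (i j : Fin n) : ℝ :=
  Λ * PM (KK E μ) (dif i j)

section rr

variable {E : Elim n} {μ : Fin n → (Fin n → Bool) → ℝ} {Λ : ℝ}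

theorem rr_sum (i j : Fin n) : ∑ σ : Fin n → Bool, (Λ * PW (KK E μ) σ) *
    (if σ i = σ j then 0 else 1) = rr E μ Λ i j := by
  unfold rr
  rw [PM_eq_Ex]
  unfold Ex dif
  rw [Finset.mul_sum]
  exact Finset.sum_congr rfl fun σ _ => by ring

theorem rr_self (hμ : ∀ t, IsLaw (μ t)) (i : Fin n) : rr E μ Λ i i = 0 := by
  have e : (dif i i : (Fin n → Bool) → ℝ) = fun _ => 0 := by
    funext X; exact dif_self i X
  unfold rr
  rw [e, PM_const (KK_ker (E := E) hμ), mul_zero]

theorem rr_symm (i j : Fin n) : rr E μ Λ i j = rr E μ Λ j i := by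
  have e : (dif i j : (Fin n → Bool) → ℝ) = dif j i := by
    funext X; exact dif_symm i j X
  unfold rr
  rw [e]

theorem rr_tri (hμ : ∀ t, IsLaw (μ t)) (hΛ : 0 < Λ) (i j l : Fin n) :
    rr E μ Λ i l ≤ rr E μ Λ i j + rr E μ Λ j l := by
  unfold rr
  rw [← mul_add, ← PM_add]
  exact mul_le_mul_of_nonneg_left (PM_mono (KK_ker (E := E) hμ) fun X => dif_tri i j l X) hΛ.le

theorem rr_nonneg (hμ : ∀ t, IsLaw (μ t)) (hΛ : 0 < Λ) (i j : Fin n) : 0 ≤ rr E μ Λ i j :=
  mul_nonneg hΛ.le (PM_nonneg (KK_ker (E := E) hμ) fun X => dif_nonneg _ _ X)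

theorem rr_bag (hμ : ∀ t, IsLaw (μ t)) (hc : Cons E μ) (t : Fin n) {p q : Fin n}
    (hp : p ∈ E.B t) (hq : q ∈ E.B t) : rr E μ Λ p q = Λ * Ex (μ t) (dif p q) := by
  unfold rr
  rw [PM_bag hμ hc t (h := dif p q) (dif_dep p q (Finset.mem_coe.2 hp) (Finset.mem_coe.2 hq))]

end rr

/-- the constant of the end -/
noncomputable def cEnd (k : ℕ) (D C1 : ℝ) : ℝ :=
  min (1 / (4 * D)) (1 / (16 * D * (C1 * H254.KK (2 ^ (k + 1)))))

theorem cEnd_pos {k : ℕ} {D C1 : ℝ} (hD : 0 < D) (hC : 0 < C1) : 0 < cEnd k D C1 := by
  unfold cEnd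
  have := KK_pos (2 ^ (k + 1))
  exact lt_min (by positivity) (by positivity)

/-- **[END]** -/
theorem end_stmt (hE : ElimStmt) : EndStmt := by
  classical
  intro k D C1 hD hC
  have hD0 : 0 < D := lt_of_lt_of_le one_pos hD
  refine ⟨cEnd k D C1, cEnd_pos hD0 hC, ?_⟩
  intro n T Z d hn hd HA HN
  obtain ⟨E, fi, la, hfi, hla, hA, hB, hBs, hpar, -, -, hdesc, hbel, hcons⟩ := hE Z
  obtain ⟨μA, ΛA, hΛA, hμA, hcA, hbagA⟩ := HA
  obtain ⟨μN, ΛN, hΛN, hμN, hcN, hbagN, hcoup⟩ := HN
  set νA : Fin n → (Fin n → Bool) → ℝ := fun v => μA (Z.tor v) with hνA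
  set νN : Fin n → (Fin n → Bool) → ℝ := fun v => μN (Z.tor v) with hνN
  have hlA : ∀ t, IsLaw (νA t) := fun t => hμA _
  have hlN : ∀ t, IsLaw (νN t) := fun t => hμN _
  have hCA : Cons E νA := hcons μA hcA
  have hCN : Cons E νN := hcons μN hcN
  have hrA : ∀ t, ∀ p ∈ Z.H t, ∀ q ∈ Z.H t, rr E νA ΛA p q = ΛA * Ex (μA t) (dif p q) := by
    intro t p hp q hq
    rw [rr_bag hlA hCA (la t) (by rw [hB]; exact hp) (by rw [hB]; exact hq), hνA]
    dsimp only
    rw [hla]
  have hrN : ∀ t, ∀ p ∈ Z.H t, ∀ q ∈ Z.H t, rr E νN ΛN p q = ΛN * Ex (μN t) (dif p q) := by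
    intro t p hp q hq
    rw [rr_bag hlN hCN (la t) (by rw [hB]; exact hp) (by rw [hB]; exact hq), hνN]
    dsimp only
    rw [hla]
  have hleA : ∀ i j, rr E νA ΛA i j ≤ d i j := le_all Z hd (rr_self hlA) rr_symm
    (rr_tri hlA hΛA) fun t p hp p' hp' => by
      rw [hrA t p hp p' hp']; exact (hbagA t p hp p' hp').2
  have hleN : ∀ i j, rr E νN ΛN i j ≤ d i j := le_all Z hd (rr_self hlN) rr_symm
    (rr_tri hlN hΛN) fun t p hp p' hp' => by
      rw [hrN t p hp p' hp']; exact hbagN t p hp p' hp'
  have hd0 : ∀ i j, 0 ≤ d i j := fun i j => (rr_nonneg hlA hΛA i j).trans (hleA i j)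
  have hsum : ∀ i j, ∑ σ : Fin n → Bool,
      ((ΛA * PW (KK E νA) σ) / 2 + (ΛN * PW (KK E νN) σ) / 2) * (if σ i = σ j then 0 else 1) =
      rr E νA ΛA i j / 2 + rr E νN ΛN i j / 2 := by
    intro i j
    rw [← rr_sum, ← rr_sum, Finset.sum_div, Finset.sum_div, ← Finset.sum_add_distrib]
    exact Finset.sum_congr rfl fun σ _ => by ring
  refine ⟨Fin n → Bool, inferInstance,
    fun σ => (ΛA * PW (KK E νA) σ) / 2 + (ΛN * PW (KK E νN) σ) / 2, fun σ => σ,
    fun σ => ?_, ?_, ?_⟩
  · have h1 := mul_nonneg hΛA.le ((PW_isLaw (KK_ker (E := E) hlA)).nonneg σ)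
    have h2 := mul_nonneg hΛN.le ((PW_isLaw (KK_ker (E := E) hlN)).nonneg σ)
    positivity
  · intro i j
    rw [hsum]
    have h1 := hleA i j
    have h2 := hleN i j
    linarith
  · intro x y
    rw [hsum]
    have hAx := rr_nonneg (E := E) hlA hΛA x y
    have hNx := rr_nonneg (E := E) hlN hΛN x y
    by_cases hxy : x = y
    · subst hxy
      rw [hd.self, mul_zero]
      positivity
    have hpos : 0 < d x y := hd.pos x y hxy
    have hT : 0 < T := lt_of_le_of_lt (Nat.zero_le _) (Z.tor ⟨0, hn⟩).2
    -- the root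
    have hroot : ∀ v : Fin T, Z.tree.Desc ⟨0, hT⟩ v := by
      intro v
      induction v using WellFoundedLT.induction with
      | ind v ih =>
        by_cases hv : (v : ℕ) = 0
        · have : v = ⟨0, hT⟩ := Fin.ext hv
          rw [this]
          exact Elim.Desc.refl _ _
        · exact Elim.Desc.par (ih _ (Z.up_lt v (Nat.pos_of_ne_zero hv)))
    obtain ⟨t, hx1, hx2, hx3, hx4⟩ := exists_path (hroot (Z.tor x)) (hroot (Z.tor y))
    obtain ⟨t', hy1, hy2, hy3, hy4⟩ := exists_path (hroot (Z.tor y)) (hroot (Z.tor x))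
    have htt : t' = t := le_antisymm (hx3 t' hy2 hy1) (hy3 t hx2 hx1)
    rw [htt] at hy4
    have hKK : 0 < H254.KK (2 ^ (k + 1)) := KK_pos _
    have hCK : 0 < C1 * H254.KK (2 ^ (k + 1)) := mul_pos hC hKK
    set ε : ℝ := 1 / (8 * D) with hε
    have hε0 : 0 < ε := by positivity
    -- a far vertex is separated, a near vertex has a partner in the torso
    have dich : ∀ u v : Fin n, rr E νN ΛN u v = rr E νN ΛN x y →
        (Z.tor u = t ∨ ∃ (q : ℕ → Fin T) (N : ℕ), Path Z.tree q N ∧ q 0 = t ∧ q N = Z.tor u ∧
          Z.tor v ∈ Z.tree.Out (q 1)) →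
        (∃ a ∈ Z.H t, d u a < ε * d x y) ∨ cEnd k D C1 * d x y ≤ rr E νN ΛN x y / 2 := by
      intro u v huv hor
      rcases hor with h | ⟨q, N, hq, hq0, hqN, hv⟩
      · left
        refine ⟨u, ?_, ?_⟩
        · unfold Tor.H
          simp [h]
        · rw [hd.self]
          positivity
      · by_cases hnear : ∃ a ∈ Z.S (q 1), d u a < ε * d x y
        · left
          obtain ⟨a, ha, h1⟩ := hnear
          refine ⟨a, ?_, h1⟩
          have h2 : Z.up (q 1) = t := by
            have := hq.par 0 hq.pos
            rw [zero_add] at this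
            rw [← hq0]
            exact this
          unfold Tor.H
          rcases Z.sub _ a ha with h3 | h3
          · rw [h2] at h3
            exact Finset.mem_union_left _ h3
          · rw [h2] at h3
            exact Finset.mem_union_right _ (by simp [h3])
        · right
          simp only [not_exists, not_and, not_lt] at hnear
          obtain ⟨c, Ω, hΩ, w, X, hX, hr⟩ := hcoup q N hq u hqN.symm (ε * d x y)
            (by positivity) hnear
          have hne : ∀ i < N, Z.up (q (i + 1)) ≠ q (i + 1) := by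
            intro i hi h
            have h1 : Z.up (q (i + 1)) = q i := hq.par i hi
            exact hq.ne i hi (by rw [← h1]; exact h)
          have hcp : H578.CPath E (fun i => fi (q i)) (fun i => la (q i)) N := by
            refine ⟨hq.pos, ?_, ?_⟩
            · intro i hi
              have h1 : Z.up (q (i + 1)) = q i := hq.par i hi
              show E.par (fi (q (i + 1))) = la (q i)
              rw [hpar _ (hne i hi), h1]
            · intro i _
              have := hdesc (la (q i))
              rw [hla] at this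
              exact this
          have hzB : u ∈ E.B (la (q N)) := by
            rw [hB, hqN]
            unfold Tor.H
            simp
          have hAB : ∀ i, 1 ≤ i → i ≤ N → E.A (fi (q i)) ⊆ E.B (la (q i)) := by
            intro i _ _
            rw [hA, hB]
            exact Finset.subset_union_left
          have hXB : H578.CoupB E νN (fun i => fi (q i)) (fun i => la (q i)) N u c w X := by
            refine ⟨hX.nonneg, ?_, ?_, ?_⟩
            · intro i h1 hi h hh
              have h2 := hX.bag i h1 hi h (hh.mono (Set.union_subset ?_ ?_))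
              · rw [h2, hνN]
                dsimp only
                rw [hla]
              · rw [← hB]
                exact Finset.coe_subset.2 (hAB i h1 hi)
              · rw [← hB]
                obtain ⟨j, rfl⟩ : ∃ j, i = j + 1 := ⟨i - 1, by omega⟩
                exact Finset.coe_subset.2 (hcp.D_sub hzB (by omega))
            · intro i h1 hi ω hw v hv
              rw [hA] at hv
              exact hX.agree i h1 hi ω hw v hv
            · intro f hf hfd
              rw [hA] at hfd
              exact hX.far f hf hfd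
          have hvo : v ∈ E.Out (fi (q 1)) := by
            intro h
            exact hv ((hbel _ _).1 h)
          have h1 := H578.far_block hlN hCN hcp hzB (k := k + 1) (by omega)
            (fun i _ _ => by rw [hA]; exact (Z.card _).trans (Nat.le_succ k)) hAB hXB hvo
          have h2 : PM (KK E νN) (fun X => if X u = X v then 0 else 1) =
              PM (KK E νN) (dif u v) := rfl
          rw [h2] at h1
          have h3 : ΛN * c ≤ H254.KK (2 ^ (k + 1)) * rr E νN ΛN x y := by
            rw [← huv]
            unfold rr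
            have := mul_le_mul_of_nonneg_left h1 hΛN.le
            linarith
          have h4 : ε * d x y ≤ C1 * H254.KK (2 ^ (k + 1)) * rr E νN ΛN x y := by
            refine hr.trans ?_
            rw [mul_assoc]
            exact mul_le_mul_of_nonneg_left h3 hC.le
          have hc1 : cEnd k D C1 ≤ 1 / (16 * D * (C1 * H254.KK (2 ^ (k + 1)))) :=
            min_le_right _ _
          refine (mul_le_mul_of_nonneg_right hc1 hpos.le).trans ?_
          have h5 : 1 / (16 * D * (C1 * H254.KK (2 ^ (k + 1)))) =
              ε / 2 / (C1 * H254.KK (2 ^ (k + 1))) := by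
            rw [hε]
            field_simp
            ring
          rw [h5, div_mul_eq_mul_div, div_le_iff₀ hCK]
          linarith
    rcases dich x y rfl hx4 with ⟨a, ha, hxa⟩ | h
    · rcases dich y x (rr_symm y x) hy4 with ⟨b, hb, hyb⟩ | h
      · have h1 : d a b / D ≤ rr E νA ΛA a b := by
          rw [hrA t a ha b hb]
          exact (hbagA t a ha b hb).1
        have h2 := hleA x a
        have h3 := hleA y b
        have h4 := rr_tri hlA hΛA a x b (E := E)
        have h5 := rr_tri hlA hΛA x y b (E := E)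
        rw [rr_symm a x] at h4
        have h6 := hd.tri x a y
        have h7 := hd.tri a b y
        rw [hd.symm b y] at h7
        have hc1 : cEnd k D C1 ≤ 1 / (4 * D) := min_le_left _ _
        refine (mul_le_mul_of_nonneg_right hc1 hpos.le).trans ?_
        have h8 : (d x y - 2 * (ε * d x y)) / D ≤ d a b / D :=
          div_le_div_of_nonneg_right (by linarith) hD0.le
        have h9 : (d x y - 2 * (ε * d x y)) / D - 2 * (ε * d x y) ≤ rr E νA ΛA x y := by
          linarith
        have h10 : 1 / (2 * D) * d x y ≤ (d x y - 2 * (ε * d x y)) / D - 2 * (ε * d x y) := by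
          rw [hε]
          have e1 : (d x y - 2 * (1 / (8 * D) * d x y)) / D - 2 * (1 / (8 * D) * d x y) -
              1 / (2 * D) * d x y = (D - 1) / (4 * D ^ 2) * d x y := by
            field_simp
            ring
          have e2 : 0 ≤ (D - 1) / (4 * D ^ 2) * d x y := by
            have : 0 ≤ D - 1 := by linarith
            positivity
          linarith
        have h11 : 1 / (4 * D) * d x y = 1 / (2 * D) * d x y / 2 := by
          field_simp
          ring
        rw [h11]
        linarith
      · linarith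
    · linarith

end Vale.Agent.P235.K5.H502
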